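import Vale.Agent.P102.LocalFinite

open MeasureTheory Filter Topology

namespace Vale.Agent.Results.P102.LocalFiniteFailures

/-- For a mixing map, mixing of order 3 fails on at most boundedly many configurations in every
window far enough out, the bound not depending on the size of the window or on the set at time 0;
and the same holds at order `n + 1` whenever mixing of order `n` holds. -/
theorem result {Ω : Type*} [MeasurableSpace Ω] {μ : Measure Ω} [IsProbabilityMeasure μ]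
    {T : Ω → Ω} (hT : MeasurePreserving T μ μ)
    (hmix : ∀ A B : Set Ω, MeasurableSet A → MeasurableSet B →
      Tendsto (fun k => μ.real (A ∩ T^[k] ⁻¹' B)) atTop (𝓝 (μ.real A * μ.real B))) :
    (∀ B C : Set Ω, MeasurableSet B → MeasurableSet C → ∀ ε : ℝ, 0 < ε → ∃ K : ℕ,
      ∀ A : Set Ω, MeasurableSet A → ∀ R : ℕ, ∃ D : ℕ, ∀ S : Finset (ℕ × ℕ),
        (∀ p ∈ S, D ≤ p.1 ∧ p.1 + D ≤ p.2) →
        (∀ p ∈ S, ∀ q ∈ S, p.1 ≤ q.1 + R ∧ p.2 ≤ q.2 + R) →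
        (∀ p ∈ S, ε < |μ.real (A ∩ (T^[p.1] ⁻¹' B ∩ T^[p.2] ⁻¹' C)) -
          μ.real A * (μ.real B * μ.real C)|) →
        S.card ≤ K) ∧
    ∀ n : ℕ,
      (∀ A : Fin n → Set Ω, (∀ i, MeasurableSet (A i)) → ∀ ε : ℝ, 0 < ε → ∃ D : ℕ,
        ∀ t : Fin n → ℕ, (∀ i j, i < j → t i + D ≤ t j) →
          |μ.real (⋂ i, T^[t i] ⁻¹' A i) - ∏ i, μ.real (A i)| < ε) →
      ∀ A : Fin n → Set Ω, (∀ i, MeasurableSet (A i)) → ∀ ε : ℝ, 0 < ε → ∃ K : ℕ,
        ∀ A₀ : Set Ω, MeasurableSet A₀ → ∀ R : ℕ, ∃ D : ℕ,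
        ∀ S : Finset (Fin (n + 1) → ℕ),
          (∀ t ∈ S, t 0 = 0 ∧ ∀ i j, i < j → t i + D ≤ t j) →
          (∀ t ∈ S, ∀ t' ∈ S, ∀ i, t i ≤ t' i + R) →
          (∀ t ∈ S, ε < |μ.real (⋂ i, T^[t i] ⁻¹' (Fin.cons A₀ A : Fin (n + 1) → Set Ω) i) -
            ∏ i, μ.real ((Fin.cons A₀ A : Fin (n + 1) → Set Ω) i)|) →
          S.card ≤ K := by
  classical
  have h2 : Vale.Agent.P102.LocalFinite.MixOrder μ T 2 := fun A hA ε hε => by
    obtain ⟨D, hD⟩ := Metric.tendsto_atTop.1 (hmix (A 0) (A 1) (hA 0) (hA 1)) ε hε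
    refine ⟨D, fun t ht => ?_⟩
    have h01 := ht 0 1 (by decide)
    have e : ⋂ i, T^[t i] ⁻¹' A i = T^[t 0] ⁻¹' (A 0 ∩ T^[t 1 - t 0] ⁻¹' A 1) := by
      ext x
      simp only [Set.mem_iInter, Fin.forall_fin_two, Set.mem_preimage, Set.mem_inter_iff,
        ← Function.iterate_add_apply, Nat.sub_add_cancel (show t 0 ≤ t 1 by omega)]
    rw [e, Fin.prod_univ_two, Measure.real, (hT.iterate _).measure_preimage
      (((hA 0).inter ((hT.iterate _).measurable (hA 1))).nullMeasurableSet)]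
    exact hD _ (by omega)
  refine ⟨fun B C hB hC ε hε => ?_, fun n hn A hA ε hε =>
    Vale.Agent.P102.LocalFinite.locally_finite hT h2 hn A hA ε hε⟩
  obtain ⟨K, hK⟩ := Vale.Agent.P102.LocalFinite.locally_finite hT h2 h2 ![B, C]
    (fun i => by fin_cases i <;> simp [hB, hC]) ε hε
  refine ⟨K, fun A hA R => ?_⟩
  obtain ⟨D, hD⟩ := hK A hA R
  refine ⟨D, fun S hS hR hbad => ?_⟩
  let φ : ℕ × ℕ → Fin 3 → ℕ := fun p => ![0, p.1, p.2]
  have hφ : Function.Injective φ := fun p q h =>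
    Prod.ext (by simpa [φ] using congrFun h 1) (by simpa [φ] using congrFun h 2)
  rw [← Finset.card_image_of_injective S hφ]
  refine hD _ ?_ ?_ ?_
  · intro t ht
    obtain ⟨p, hp, rfl⟩ := Finset.mem_image.1 ht
    obtain ⟨h1, h2⟩ := hS p hp
    refine ⟨rfl, fun i j hij => ?_⟩
    clear hbad hD hK hR
    fin_cases i <;> fin_cases j <;> first
      | (exfalso; exact absurd hij (by decide))
      | (simp [φ]; omega)
  · intro t ht t' ht' i
    obtain ⟨p, hp, rfl⟩ := Finset.mem_image.1 ht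
    obtain ⟨q, hq, rfl⟩ := Finset.mem_image.1 ht'
    obtain ⟨h1, h2⟩ := hR p hp q hq
    fin_cases i <;> simp [φ] <;> omega
  · intro t ht
    obtain ⟨p, hp, rfl⟩ := Finset.mem_image.1 ht
    have e : ⋂ i, T^[φ p i] ⁻¹' (Fin.cons A ![B, C] : Fin 3 → Set Ω) i =
        A ∩ (T^[p.1] ⁻¹' B ∩ T^[p.2] ⁻¹' C) := by
      ext x
      simp [φ, Fin.forall_fin_succ]
    rw [e]
    simpa [Fin.prod_univ_succ] using hbad p hp

end Vale.Agent.Results.P102.LocalFiniteFailures
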