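import Vale.Agent.P102.ExactRelation

open MeasureTheory Filter Topology

namespace Vale.Agent.Results.P102.NoExactGroupRelation

/-- In a mixing map no circle valued observable satisfies an exact group relation along escaping
times: neither the three-term relation of Ledrappier's example (stated for sets and for functions),
nor, under mixing of order `n`, an `n + 1`-term signed relation. -/
theorem result {Ω : Type*} [MeasurableSpace Ω] {μ : Measure Ω} [IsProbabilityMeasure μ]
    {T : Ω → Ω} (hT : MeasurePreserving T μ μ)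
    (hmix : ∀ A B : Set Ω, MeasurableSet A → MeasurableSet B →
      Tendsto (fun k => μ.real (A ∩ T^[k] ⁻¹' B)) atTop (𝓝 (μ.real A * μ.real B))) :
    (∀ (n m : ℕ → ℕ), Tendsto n atTop atTop → Tendsto (fun k => m k - n k) atTop atTop →
      ∀ A : Set Ω, MeasurableSet A →
        Tendsto (fun k => μ.real (symmDiff (symmDiff A (T^[n k] ⁻¹' A)) (T^[m k] ⁻¹' A)))
          atTop (𝓝 0) → μ.real A = 0) ∧
    (∀ (u : Ω → Circle), Measurable (fun x => (u x : ℂ)) →
      ∀ (n m : ℕ → ℕ) (c : ℕ → Circle), Tendsto n atTop atTop →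
        Tendsto (fun k => m k - n k) atTop atTop →
        Tendsto (fun k => ∫ x, ‖(u (T^[m k] x) : ℂ) - c k * (u x * u (T^[n k] x))‖ ∂μ)
          atTop (𝓝 0) → ∃ z : Circle, ∀ᵐ x ∂μ, u x = z) ∧
    (∀ N : ℕ, 2 ≤ N →
      (∀ A : Fin N → Set Ω, (∀ i, MeasurableSet (A i)) → ∀ ε : ℝ, 0 < ε → ∃ D : ℕ,
        ∀ t : Fin N → ℕ, (∀ i j, i < j → t i + D ≤ t j) →
          |μ.real (⋂ i, T^[t i] ⁻¹' A i) - ∏ i, μ.real (A i)| < ε) →
      ∀ (u : Ω → Circle), Measurable (fun x => (u x : ℂ)) →
      ∀ (t : ℕ → Fin (N + 1) → ℕ) (e : ℕ → Fin (N + 1) → Bool) (c : ℕ → Circle),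
        (∀ k, t k 0 = 0) → (∀ D : ℕ, ∀ᶠ k in atTop, ∀ i j, i < j → t k i + D ≤ t k j) →
        Tendsto (fun k => ∫ x,
          ‖∏ i, ((u (T^[t k i] x) ^ (if e k i then 1 else -1 : ℤ) : Circle) : ℂ) - c k‖ ∂μ)
          atTop (𝓝 0) → ∃ z : Circle, ∀ᵐ x ∂μ, u x = z) := by
  classical
  have h2 : Vale.Agent.P102.LocalFinite.MixOrder μ T 2 := fun A hA ε hε => by
    obtain ⟨D, hD⟩ := Metric.tendsto_atTop.1 (hmix (A 0) (A 1) (hA 0) (hA 1)) ε hε
    refine ⟨D, fun t ht => ?_⟩
    have h01 := ht 0 1 (by decide)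
    have e : ⋂ i, T^[t i] ⁻¹' A i = T^[t 0] ⁻¹' (A 0 ∩ T^[t 1 - t 0] ⁻¹' A 1) := by
      ext x
      simp only [Set.mem_iInter, Fin.forall_fin_two, Set.mem_preimage, Set.mem_inter_iff,
        ← Function.iterate_add_apply, Nat.sub_add_cancel (show t 0 ≤ t 1 by omega)]
    rw [e, Fin.prod_univ_two, Measure.real, (hT.iterate _).measure_preimage
      (((hA 0).inter ((hT.iterate _).measurable (hA 1))).nullMeasurableSet)]
    exact hD _ (by omega)
  have three : ∀ (u : Ω → Circle), Measurable (fun x => (u x : ℂ)) →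
      ∀ (n m : ℕ → ℕ) (c : ℕ → Circle), Tendsto n atTop atTop →
        Tendsto (fun k => m k - n k) atTop atTop →
        Tendsto (fun k => ∫ x, ‖(u (T^[m k] x) : ℂ) - c k * (u x * u (T^[n k] x))‖ ∂μ)
          atTop (𝓝 0) → ∃ z : Circle, ∀ᵐ x ∂μ, u x = z := by
    intro u hu n m c hn hmn h
    refine Vale.Agent.P102.ExactRelation.const_of_relation hT hu le_rfl h2 h2
      (fun k => ![0, n k, m k]) (fun _ => ![true, true, false]) (fun k => (c k)⁻¹)
      (fun k => rfl) (fun D => ?_) (h.congr fun k => integral_congr_ae (ae_of_all _ fun x => ?_))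
    · filter_upwards [hn.eventually_ge_atTop D, hmn.eventually_ge_atTop (D + 1)] with k h1 h1' i j hij
      fin_cases i <;> fin_cases j <;> first
        | (exfalso; exact absurd hij (by decide))
        | (simp; omega)
    · simp [Fin.prod_univ_three]
      have hne : ∀ z : Circle, (z : ℂ) ≠ 0 := fun z => Circle.coe_ne_zero z
      have key : (u x : ℂ) * u (T^[n k] x) * (u (T^[m k] x) : ℂ)⁻¹ - (c k : ℂ)⁻¹ =
          ((c k : ℂ) * (u x * u (T^[n k] x)) - u (T^[m k] x)) *
            ((c k : ℂ)⁻¹ * (u (T^[m k] x) : ℂ)⁻¹) := by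
        have := hne (c k)
        have := hne (u (T^[m k] x))
        field_simp
      rw [key, norm_mul, norm_mul, norm_inv, norm_inv, Circle.norm_coe, Circle.norm_coe,
        inv_one, mul_one, mul_one, norm_sub_rev]
  refine ⟨fun n m hn hmn A hA h => ?_, three, fun N hN hord u hu t e c ht0 hgap h =>
    Vale.Agent.P102.ExactRelation.const_of_relation hT hu hN h2 hord t e c ht0 hgap h⟩
  set w : Circle := Circle.exp Real.pi
  have hw : (w : ℂ) = -1 := by simp [w, Circle.coe_exp, Complex.exp_pi_mul_I]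
  let u : Ω → Circle := fun x => if x ∈ A then w else 1
  have hu : Measurable fun x => (u x : ℂ) := by
    have : (fun x => (u x : ℂ)) = A.piecewise (fun _ => -1) (fun _ => 1) := by
      funext x
      by_cases hx : x ∈ A <;> simp [u, hx, hw]
    rw [this]
    exact measurable_const.piecewise hA measurable_const
  set S : ℕ → Set Ω := fun k => symmDiff (symmDiff A (T^[n k] ⁻¹' A)) (T^[m k] ⁻¹' A)
  have hS : ∀ k, MeasurableSet (S k) := fun k =>
    (hA.symmDiff ((hT.iterate _).measurable hA)).symmDiff ((hT.iterate _).measurable hA)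
  have hn' : ∀ k, ∫ x, ‖(u (T^[m k] x) : ℂ) - (1 : Circle) * (u x * u (T^[n k] x))‖ ∂μ =
      2 * μ.real (S k) := fun k => by
    have e : ∀ x, ‖(u (T^[m k] x) : ℂ) - (1 : Circle) * (u x * u (T^[n k] x))‖ =
        (S k).indicator (fun _ => (2 : ℝ)) x := fun x => by
      by_cases h1 : x ∈ A <;> by_cases h2 : T^[n k] x ∈ A <;> by_cases h3 : T^[m k] x ∈ A <;>
        norm_num [u, S, Set.indicator, Set.mem_symmDiff, h1, h2, h3, hw]
    simp only [e]
    rw [integral_indicator_const _ (hS k), smul_eq_mul, mul_comm]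
  obtain ⟨z, hz⟩ := three u hu n m (fun _ => 1) hn hmn
    ((by simpa using h.const_mul 2 : Tendsto (fun k => 2 * μ.real (S k)) atTop (𝓝 0)).congr
      fun k => (hn' k).symm)
  by_contra h0
  -- then `A` is conull, and so is the symmetric difference
  have hAe : ∀ᵐ x ∂μ, x ∈ A := by
    by_cases hz1 : z = w
    · filter_upwards [hz] with x hx
      by_contra hxA
      simp only [u, if_neg hxA] at hx
      have hh := congrArg (fun y : Circle => (y : ℂ)) (hx.trans hz1)
      norm_num [hw] at hh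
    · exfalso
      apply h0
      have : ∀ᵐ x ∂μ, x ∉ A := by
        filter_upwards [hz] with x hx hxA
        simp only [u, if_pos hxA] at hx
        exact hz1 hx.symm
      rw [measureReal_eq_zero_iff, ← ae_iff.1 (this.mono fun x hx => hx)]
      simp
  have hone : ∀ k, μ.real (S k) = 1 := fun k => by
    have hall : ∀ᵐ x ∂μ, x ∈ S k := by
      filter_upwards [hAe, (hT.iterate (n k)).quasiMeasurePreserving.ae hAe,
        (hT.iterate (m k)).quasiMeasurePreserving.ae hAe] with x a b d
      simp [S, Set.mem_symmDiff, a, b, d]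
    have hu' : S k =ᵐ[μ] Set.univ := by
      filter_upwards [hall] with x hx
      exact eq_true hx |>.trans (eq_true trivial).symm
    rw [measureReal_congr hu', probReal_univ]
  exact one_ne_zero (tendsto_nhds_unique tendsto_const_nhds (h.congr fun k => hone k))

end Vale.Agent.Results.P102.NoExactGroupRelation
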