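import Vale.Agent.P102.BadConfig

open MeasureTheory Filter Topology

namespace Vale.Agent.Results.P102.SparseFailures

/-- For a mixing transformation and every order, the gap vectors in a box of side `N` at which
multiple mixing fails by more than `ε` number `O(N ^ (n - 1))`, one dimension less than the box. -/
theorem result {Ω : Type*} [MeasurableSpace Ω] {μ : Measure Ω} [IsProbabilityMeasure μ]
    {T : Ω → Ω} (hT : MeasurePreserving T μ μ)
    (hmix : ∀ A B : Set Ω, MeasurableSet A → MeasurableSet B →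
      Tendsto (fun n => μ.real (A ∩ T^[n] ⁻¹' B)) atTop (𝓝 (μ.real A * μ.real B)))
    (n : ℕ) (A : Fin (n + 1) → Set Ω) (hA : ∀ i, MeasurableSet (A i)) (ε : ℝ) (hε : 0 < ε) :
    ∃ C : ℕ, ∀ N : ℕ,
      Nat.card {g : Fin n → Fin N // ε < |μ.real (⋂ i : Fin (n + 1),
          T^[∑ j : Fin n, if (j : ℕ) < i then (g j : ℕ) else 0] ⁻¹' A i)
        - ∏ i, μ.real (A i)|} ≤ C * N ^ (n - 1) := by
  obtain ⟨C, hC⟩ := Vale.Agent.P102.bad_config_bound hT
    (fun B hB => by simpa [sq] using hmix B B hB hB) n A hA ε hε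
  exact ⟨C, fun N => by
    rw [Nat.card_eq_fintype_card, Fintype.card_subtype]
    exact hC N⟩

end Vale.Agent.Results.P102.SparseFailures
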